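import Vale.Agent.P181.BAL.Defs

set_option autoImplicit false

open scoped TensorProduct

/-!
# P181, BAL, row B7 (helper368): products of lines
-/

namespace Vale.Agent.P181.BAL.H368

open Vale.Agent.P181 Vale.Agent.P181.H280 Vale.Agent.P181.H54 Vale.Agent.P181.FR
open Vale.Agent.P181.BAL

/-- The product of two highest weight vectors, with the values along the line. -/
lemma exists_prod {b B a k : ℕ} {mu nu : Fin (k + 2) → ℕ} {x : Pleth b a (k + 2)}
    {y : Pleth B a (k + 2)} (hx : x ∈ hwSpace mu (plethAct b a (k + 2)))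
    (hy : y ∈ hwSpace nu (plethAct B a (k + 2))) :
    ∃ z ∈ hwSpace (mu + nu) (plethAct (b + B) a (k + 2)), ∃ c : ℂ, c ≠ 0 ∧
      ∀ (φ : Module.Dual ℂ (Sym[ℂ]^a (Fin (k + 2) → ℂ)))
        (g : Matrix (Fin (k + 2)) (Fin (k + 2)) ℂ),
        ev φ (plethAct (b + B) a (k + 2) g z) =
          c * (ev φ (plethAct b a (k + 2) g x) * ev φ (plethAct B a (k + 2) g y)) := by
  obtain ⟨L, hL⟩ := exists_mul (M := Sym[ℂ]^a (Fin (k + 2) → ℂ)) (b := b) (B := B) y
  have h3 : (Fintype.card (Equiv.Perm (Fin b)) : ℂ) *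
      (Fintype.card (Equiv.Perm (Fin B)) : ℂ) ≠ 0 := mul_ne_zero (fac_ne _) (fac_ne _)
  refine ⟨L x, ?_, (Fintype.card (Equiv.Perm (Fin (b + B))) : ℂ) /
    ((Fintype.card (Equiv.Perm (Fin b)) : ℂ) * (Fintype.card (Equiv.Perm (Fin B)) : ℂ)),
    div_ne_zero (fac_ne _) h3, ?_⟩
  · intro g hg
    have hx1 : symMap b (symMap a (Matrix.toLin' g)) x = (∏ i, g i i ^ mu i) • x := hx g hg
    have hy1 : symMap B (symMap a (Matrix.toLin' g)) y = (∏ i, g i i ^ nu i) • y := hy g hg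
    have h1 : symMap (b + B) (symMap a (Matrix.toLin' g)) (L x) -
        (∏ i, g i i ^ (mu + nu) i) • L x = 0 := by
      apply pv_inj
      intro φ
      rw [map_sub, map_smul, H54.symEval_symMap, sub_eq_zero, smul_eq_mul]
      have e1 := hL (φ ∘ₗ symMap a (Matrix.toLin' g)) x
      have e2 := hL φ x
      have e3 : symEval (fun _ : Fin b => φ ∘ₗ symMap a (Matrix.toLin' g)) x =
          (∏ i, g i i ^ mu i) * symEval (fun _ => φ) x := pv_eigen _ _ _ hx1 φ
      have e4 : symEval (fun _ : Fin B => φ ∘ₗ symMap a (Matrix.toLin' g)) y =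
          (∏ i, g i i ^ nu i) * symEval (fun _ => φ) y := pv_eigen _ _ _ hy1 φ
      rw [e3, e4] at e1
      apply mul_left_cancel₀ h3
      have h4 : ∏ i, g i i ^ (mu + nu) i = (∏ i, g i i ^ mu i) * ∏ i, g i i ^ nu i := by
        rw [← Finset.prod_mul_distrib]
        apply Finset.prod_congr rfl
        intro i _
        rw [Pi.add_apply, pow_add]
      rw [e1, h4]
      calc _ = (∏ i, g i i ^ mu i) * (∏ i, g i i ^ nu i) *
            ((Fintype.card (Equiv.Perm (Fin (b + B))) : ℂ) *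
              (symEval (fun _ => φ) y * symEval (fun _ => φ) x)) := by ring
        _ = _ := by rw [← e2]; ring
    exact eq_of_sub_zero' h1
  · intro φ g
    have e1 := hL (φ ∘ₗ symMap a (Matrix.toLin' g)) x
    have f0 : ev φ (plethAct (b + B) a (k + 2) g (L x)) =
        symEval (fun _ => φ ∘ₗ symMap a (Matrix.toLin' g)) (L x) :=
      H54.symEval_symMap _ _ _ _
    have f1 : ev φ (plethAct b a (k + 2) g x) =
        symEval (fun _ => φ ∘ₗ symMap a (Matrix.toLin' g)) x :=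
      H54.symEval_symMap _ _ _ _
    have f2 : ev φ (plethAct B a (k + 2) g y) =
        symEval (fun _ => φ ∘ₗ symMap a (Matrix.toLin' g)) y :=
      H54.symEval_symMap _ _ _ _
    rw [f0, f1, f2, div_mul_eq_mul_div, eq_div_iff h3, mul_comm, e1]
    ring

/-- Products of lines. -/
lemma line_mul {n₁ n₂ n₃ a k w w' i i' : ℕ}
    {φ : ℂ → Module.Dual ℂ (Sym[ℂ]^a (Fin (k + 2) → ℂ))} {x : Pleth n₁ a (k + 2)}
    {y : Pleth n₂ a (k + 2)} {z : Pleth n₃ a (k + 2)} (c : ℂ) (hc : c ≠ 0)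
    (h : ∀ (ψ : Module.Dual ℂ (Sym[ℂ]^a (Fin (k + 2) → ℂ)))
        (g : Matrix (Fin (k + 2)) (Fin (k + 2)) ℂ),
        ev ψ (plethAct n₃ a (k + 2) g z) =
          c * (ev ψ (plethAct n₁ a (k + 2) g x) * ev ψ (plethAct n₂ a (k + 2) g y)))
    (hx : HasLine φ w i x) (hy : HasLine φ w' i' y) : HasLine φ (w + w') (i + i') z := by
  obtain ⟨c1, R1, hc1, h1⟩ := hx
  obtain ⟨c2, R2, hc2, h2⟩ := hy
  refine ⟨c * (c1 * c2), Polynomial.C (Polynomial.X ^ i) * R2 +
    Polynomial.C (Polynomial.X ^ i') * R1 + Polynomial.X * R1 * R2,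
    mul_ne_zero hc (mul_ne_zero hc1 hc2), ?_⟩
  intro ε s
  rw [h, h1, h2]
  simp only [Polynomial.eval_add, Polynomial.eval_mul, Polynomial.eval_C, Polynomial.eval_X,
    Polynomial.eval_pow]
  rw [pow_add, pow_add]
  ring

lemma nuK_add (a K k : ℕ) : nuK a (K + 1) k = nuK a K k + nuK a 1 k := by
  funext i
  simp only [nuK, Pi.add_apply]
  split_ifs <;> ring

/-- **(B7)** from (B6). -/
theorem nineK (h6 : Nine) : NineK := by
  intro a k K ha
  obtain ⟨φ, hφ⟩ := h6 a k ha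
  refine ⟨φ, ?_⟩
  induction K with
  | zero =>
    intro i hi
    have hi0 : i = 0 := by simpa using hi
    subst hi0
    refine ⟨SymmetricPower.tprod ℂ (fun i : Fin 0 => i.elim0), ?_, ?_⟩
    · intro g _
      exact one_fix (M := Sym[ℂ]^a (Fin (k + 2) → ℂ)) (symMap a (Matrix.toLin' g)) _
        (by simp [nuK]) _
    · refine ⟨1, 0, one_ne_zero, ?_⟩
      intro ε s
      have f0 : ev (φ ε) (plethAct 0 a (k + 2) (ns k s)
          (SymmetricPower.tprod ℂ (fun i : Fin 0 => i.elim0) :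
            Sym[ℂ]^0 (Sym[ℂ]^a (Fin (k + 2) → ℂ)))) =
          symEval (fun _ => φ ε ∘ₗ symMap a (Matrix.toLin' (ns k s)))
            (SymmetricPower.tprod ℂ (fun i : Fin 0 => i.elim0) :
            Sym[ℂ]^0 (Sym[ℂ]^a (Fin (k + 2) → ℂ))) :=
        H54.symEval_symMap _ _ _ _
      refine f0.trans ?_
      rw [symEval_const_tprod]
      simp
  | succ K ih =>
    intro i hi
    have hi' : i ≤ K * (a - 12) + (a - 12) := by rwa [Nat.succ_mul] at hi
    obtain ⟨i1, i2, rfl, h1, h2⟩ : ∃ i1 i2, i = i1 + i2 ∧ i1 ≤ K * (a - 12) ∧ i2 ≤ a - 12 := by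
      rcases le_total i (K * (a - 12)) with h | h
      · exact ⟨i, 0, rfl, h, Nat.zero_le _⟩
      · exact ⟨K * (a - 12), i - K * (a - 12), by omega, le_rfl, by omega⟩
    obtain ⟨x, hx, hxl⟩ := ih i1 h1
    obtain ⟨y, hy, hyl⟩ := hφ i2 h2
    obtain ⟨z, hz, c, hc, hv⟩ := exists_prod hx hy
    rw [nuK_add]
    exact ⟨z, hz, line_mul c hc hv hxl hyl⟩

end Vale.Agent.P181.BAL.H368
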